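import Vale.Agent.P269.G1I.Model

/-! P269 G1, leaf c2: the elementary rules of `der` and `nab`. -/

namespace Vale.Agent.P269.G1.H510

open Finset.HasAntidiagonal (antidiagonal)
open Vale.Agent.P269.CI Vale.Agent.P269.G1

variable {X : CompleteIntersection} {F : ℕ → ℕ → List (Ins X) → ℂ}

variable (hF : IsGW X F) (h1 : IsGenusOne F)

/-- the derivatives commute -/
theorem pderiv_comm {n : ℕ} {K : Type*} [CommRing K] (i j : Fin n)
    (f : MvPowerSeries (Fin n) K) :
    MvPowerSeries.pderiv K i (MvPowerSeries.pderiv K j f) =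
      MvPowerSeries.pderiv K j (MvPowerSeries.pderiv K i f) := by
  by_cases hij : i = j
  · rw [hij]
  ext m
  rw [MvPowerSeries.coeff_pderiv, MvPowerSeries.coeff_pderiv, MvPowerSeries.coeff_pderiv,
    MvPowerSeries.coeff_pderiv, add_right_comm m (Finsupp.single i 1) (Finsupp.single j 1)]
  have h1 : (m + Finsupp.single i 1 : Fin n →₀ ℕ) j = m j := by
    rw [Finsupp.add_apply, Finsupp.single_eq_of_ne (Ne.symm hij), add_zero]
  have h2 : (m + Finsupp.single j 1 : Fin n →₀ ℕ) i = m i := by
    rw [Finsupp.add_apply, Finsupp.single_eq_of_ne hij, add_zero]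
  rw [h1, h2]
  ring

theorem pderiv_nat {n : ℕ} {K : Type*} [CommRing K] (i : Fin n) (m : ℕ) :
    MvPowerSeries.pderiv K i ((m : ℕ) : MvPowerSeries (Fin n) K) = 0 := by
  have h : ((m : ℕ) : MvPowerSeries (Fin n) K) = MvPowerSeries.C (m : K) := by simp
  rw [h, MvPowerSeries.pderiv_C]

theorem pderiv_int {n : ℕ} {K : Type*} [CommRing K] (i : Fin n) (m : ℤ) :
    MvPowerSeries.pderiv K i ((m : ℤ) : MvPowerSeries (Fin n) K) = 0 := by
  have h : ((m : ℤ) : MvPowerSeries (Fin n) K) = MvPowerSeries.C (m : K) := by simp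
  rw [h, MvPowerSeries.pderiv_C]

theorem der_add_left (x y : AA hF h1) (f : RR X) :
    der hF h1 (x + y) f = der hF h1 x f + der hF h1 y f := by
  change ∑ i, (x i + y i) * _ = ∑ i, x i * _ + ∑ i, y i * _
  rw [← Finset.sum_add_distrib]
  exact Finset.sum_congr rfl fun i _ => by ring

theorem der_smul_left (g : RR X) (x : AA hF h1) (f : RR X) :
    der hF h1 (g • x) f = g * der hF h1 x f := by
  change ∑ i, (g * x i) * _ = g * ∑ i, x i * _
  rw [Finset.mul_sum]
  exact Finset.sum_congr rfl fun i _ => by ring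

theorem der_add (x : AA hF h1) (f g : RR X) :
    der hF h1 x (f + g) = der hF h1 x f + der hF h1 x g := by
  change ∑ i, x i * _ = ∑ i, x i * _ + ∑ i, x i * _
  rw [← Finset.sum_add_distrib]
  exact Finset.sum_congr rfl fun i _ => by rw [map_add]; ring

theorem der_mul (x : AA hF h1) (f g : RR X) :
    der hF h1 x (f * g) = der hF h1 x f * g + f * der hF h1 x g := by
  change ∑ i, x i * _ = (∑ i, x i * _) * g + f * ∑ i, x i * _
  rw [Finset.sum_mul, Finset.mul_sum, ← Finset.sum_add_distrib]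
  exact Finset.sum_congr rfl fun i _ => by
    rw [Derivation.leibniz, smul_eq_mul, smul_eq_mul]; ring

theorem der_rat (x : AA hF h1) (c : ℚ) (f : RR X) :
    der hF h1 x (c • f) = c • der hF h1 x f := by
  change ∑ i, x i * _ = c • ∑ i, x i * _
  rw [Finset.smul_sum]
  exact Finset.sum_congr rfl fun i _ => by rw [map_rat_smul, mul_smul_comm]

theorem nab_add_left (x y z : AA hF h1) :
    nab hF h1 (x + y) z = nab hF h1 x z + nab hF h1 y z :=
  funext fun _ => der_add_left hF h1 x y _

theorem nab_smul_left (g : RR X) (x z : AA hF h1) :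
    nab hF h1 (g • x) z = g • nab hF h1 x z :=
  funext fun _ => der_smul_left hF h1 g x _

theorem nab_add (x y z : AA hF h1) : nab hF h1 x (y + z) = nab hF h1 x y + nab hF h1 x z :=
  funext fun k => der_add hF h1 x (y k) (z k)

theorem nab_smul (x : AA hF h1) (g : RR X) (z : AA hF h1) :
    nab hF h1 x (g • z) = der hF h1 x g • z + g • nab hF h1 x z :=
  funext fun k => der_mul hF h1 x g (z k)

theorem nab_one (x : AA hF h1) : nab hF h1 x 1 = 0 := by
  funext k
  change ∑ i, x i * MvPowerSeries.pderiv (PowerSeries ℂ) i (if k = 0 then (1 : RR X) else 0) = 0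
  refine Finset.sum_eq_zero fun i _ => ?_
  split_ifs
  · rw [MvPowerSeries.pderiv_one, mul_zero]
  · rw [map_zero, mul_zero]

theorem der_comm (x y : AA hF h1) (f : RR X) :
    der hF h1 x (der hF h1 y f) - der hF h1 y (der hF h1 x f) =
      der hF h1 (nab hF h1 x y - nab hF h1 y x) f := by
  have key : ∀ a b : AA hF h1, der hF h1 a (der hF h1 b f) = der hF h1 (nab hF h1 a b) f +
      ∑ i, ∑ j, a i * b j * MvPowerSeries.pderiv (PowerSeries ℂ) i
        (MvPowerSeries.pderiv (PowerSeries ℂ) j f) := by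
    intro a b
    change ∑ i, a i * MvPowerSeries.pderiv (PowerSeries ℂ) i
        (∑ j, b j * MvPowerSeries.pderiv (PowerSeries ℂ) j f) =
      ∑ j, (∑ i, a i * MvPowerSeries.pderiv (PowerSeries ℂ) i (b j)) *
        MvPowerSeries.pderiv (PowerSeries ℂ) j f + _
    have e1 : ∑ j, (∑ i, a i * MvPowerSeries.pderiv (PowerSeries ℂ) i (b j)) *
        MvPowerSeries.pderiv (PowerSeries ℂ) j f =
        ∑ i, ∑ j, a i * MvPowerSeries.pderiv (PowerSeries ℂ) i (b j) *
          MvPowerSeries.pderiv (PowerSeries ℂ) j f := by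
      rw [Finset.sum_comm]
      exact Finset.sum_congr rfl fun j _ => by rw [Finset.sum_mul]
    rw [e1, ← Finset.sum_add_distrib]
    refine Finset.sum_congr rfl fun i _ => ?_
    rw [map_sum, Finset.mul_sum, ← Finset.sum_add_distrib]
    refine Finset.sum_congr rfl fun j _ => ?_
    rw [Derivation.leibniz, smul_eq_mul, smul_eq_mul]
    ring
  have hsym : ∑ i, ∑ j, x i * y j * MvPowerSeries.pderiv (PowerSeries ℂ) i
        (MvPowerSeries.pderiv (PowerSeries ℂ) j f) =
      ∑ i, ∑ j, y i * x j * MvPowerSeries.pderiv (PowerSeries ℂ) i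
        (MvPowerSeries.pderiv (PowerSeries ℂ) j f) := by
    rw [Finset.sum_comm]
    refine Finset.sum_congr rfl fun i _ => Finset.sum_congr rfl fun j _ => ?_
    rw [pderiv_comm j i]
    ring
  have hsub : der hF h1 (nab hF h1 x y - nab hF h1 y x) f =
      der hF h1 (nab hF h1 x y) f - der hF h1 (nab hF h1 y x) f := by
    have h := der_add_left hF h1 (nab hF h1 x y - nab hF h1 y x) (nab hF h1 y x) f
    rw [sub_add_cancel] at h
    rw [h]
    ring
  rw [key x y, key y x, hsym, hsub]
  ring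

theorem d_one : dd hF h1 1 = 0 := by
  funext k
  change ((k : ℕ) : RR X) * (if k = 0 then (1 : RR X) else 0) = 0
  split_ifs with h
  · rw [h]
    simp
  · rw [mul_zero]

theorem nab_d (x y : AA hF h1) : nab hF h1 x (dd hF h1 y) = dd hF h1 (nab hF h1 x y) := by
  funext k
  change der hF h1 x (((k : ℕ) : RR X) * y k) = ((k : ℕ) : RR X) * der hF h1 x (y k)
  rw [der_mul]
  have h : der hF h1 x ((k : ℕ) : RR X) = 0 :=
    Finset.sum_eq_zero fun i _ => by rw [pderiv_nat, mul_zero]
  rw [h, zero_mul, zero_add]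

theorem nab_E (x : AA hF h1) : nab hF h1 x (Eu hF h1) = x - dd hF h1 x := by
  funext k
  change der hF h1 x ((1 - ((k : ℕ) : RR X)) * MvPowerSeries.X k +
    if (k : ℕ) = 1 then ((index X : ℤ) : RR X) else 0) = x k - ((k : ℕ) : RR X) * x k
  rw [der_add, der_mul]
  have h2 : der hF h1 x (if (k : ℕ) = 1 then ((index X : ℤ) : RR X) else 0) = 0 := by
    refine Finset.sum_eq_zero fun i _ => ?_
    split_ifs
    · rw [pderiv_int, mul_zero]
    · rw [map_zero, mul_zero]
  have h3 : der hF h1 x (1 - ((k : ℕ) : RR X)) = 0 := by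
    refine Finset.sum_eq_zero fun i _ => ?_
    rw [map_sub, MvPowerSeries.pderiv_one, pderiv_nat, sub_zero, mul_zero]
  have h4 : der hF h1 x (MvPowerSeries.X k) = x k := by
    change ∑ i, x i * MvPowerSeries.pderiv (PowerSeries ℂ) i (MvPowerSeries.X k) = x k
    rw [Finset.sum_eq_single k]
    · rw [MvPowerSeries.pderiv_X_self, mul_one]
    · intro b _ hb
      rw [MvPowerSeries.pderiv_X_of_ne (Ne.symm hb), mul_zero]
    · simp
  rw [h2, h3, h4]
  ring

end Vale.Agent.P269.G1.H510
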