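import Vale.Agent.P269.G1I.T.H598_Cor
import Vale.Agent.P269.G1I.H510.Rules

/-! P269 G1, leaf c3: symmetry of the first and second covariant derivative of the product. -/

namespace Vale.Agent.P269.G1.H510

open Finset.HasAntidiagonal (antidiagonal)
open Vale.Agent.P269.CI Vale.Agent.P269.G1

variable {X : CompleteIntersection} {F : ℕ → ℕ → List (Ins X) → ℂ}

/-- `∂_m c_{ijk} = ∂_i c_{mjk}` -/
theorem pderiv_qc (hF : IsGW X F) (m i j k : Fin (X.dim + 1)) :
    MvPowerSeries.pderiv (PowerSeries ℂ) m (qc F i j k) =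
      MvPowerSeries.pderiv (PowerSeries ℂ) i (qc F m j k) := by
  have hswap : ∀ l, ser (cor F 0 [hpow X m, hpow X i, hpow X j, hpow X l]) =
      ser (cor F 0 [hpow X i, hpow X m, hpow X j, hpow X l]) := by
    intro l
    congr 1
    funext d L
    have h := hF.symm 0 d [] ([hpow X j, hpow X l] ++ L) (hpow X m) (hpow X i)
    have hs : sgn (par X (hpow X m).1) (par X (hpow X i).1) = 1 := by
      simp [sgn, par, hpow]
    rw [hs, one_mul] at h
    exact h
  unfold qc
  rw [map_sum, map_sum]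
  refine Finset.sum_congr rfl fun l _ => ?_
  rw [Derivation.map_smul_of_tower, Derivation.map_smul_of_tower, pderiv_cor hF, pderiv_cor hF,
    hswap]

variable (hF : IsGW X F) (h1 : IsGenusOne F)

theorem der_sum {ι : Type*} (s : Finset ι) (x : AA hF h1) (f : ι → RR X) :
    der hF h1 x (∑ i ∈ s, f i) = ∑ i ∈ s, der hF h1 x (f i) := by
  change ∑ i, x i * _ = ∑ i ∈ s, ∑ j, x j * _
  rw [Finset.sum_comm]
  exact Finset.sum_congr rfl fun i _ => by rw [map_sum, Finset.mul_sum]

/-- the covariant derivative of the product in coordinates -/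
theorem T_apply (x y z : AA hF h1) (k : Fin (X.dim + 1)) :
    (nab hF h1 x (y * z) - nab hF h1 x y * z - y * nab hF h1 x z : AA hF h1) k =
      ∑ i, ∑ j, y i * z j * der hF h1 x (qc F i j k) := by
  change der hF h1 x (∑ i, ∑ j, y i * z j * qc F i j k) -
    (∑ i, ∑ j, der hF h1 x (y i) * z j * qc F i j k) -
    (∑ i, ∑ j, y i * der hF h1 x (z j) * qc F i j k) = _
  rw [der_sum, ← Finset.sum_sub_distrib, ← Finset.sum_sub_distrib]
  refine Finset.sum_congr rfl fun i _ => ?_
  rw [der_sum, ← Finset.sum_sub_distrib, ← Finset.sum_sub_distrib]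
  refine Finset.sum_congr rfl fun j _ => ?_
  rw [der_mul, der_mul]
  ring

theorem c4_symm (x y z : AA hF h1) : nab hF h1 x (y * z) - nab hF h1 x y * z -
    y * nab hF h1 x z = nab hF h1 y (x * z) - nab hF h1 y x * z - x * nab hF h1 y z := by
  funext k
  refine (T_apply hF h1 x y z k).trans (Eq.trans ?_ (T_apply hF h1 y x z k).symm)
  change ∑ i, ∑ j, y i * z j * ∑ l, x l * MvPowerSeries.pderiv (PowerSeries ℂ) l (qc F i j k) =
    ∑ l, ∑ j, x l * z j * ∑ i, y i * MvPowerSeries.pderiv (PowerSeries ℂ) i (qc F l j k)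
  simp only [Finset.mul_sum]
  calc ∑ i, ∑ j, ∑ l, y i * z j * (x l * MvPowerSeries.pderiv (PowerSeries ℂ) l (qc F i j k))
      = ∑ i, ∑ l, ∑ j, y i * z j * (x l * MvPowerSeries.pderiv (PowerSeries ℂ) l (qc F i j k)) :=
        Finset.sum_congr rfl fun i _ => Finset.sum_comm
    _ = ∑ l, ∑ i, ∑ j, y i * z j * (x l * MvPowerSeries.pderiv (PowerSeries ℂ) l (qc F i j k)) :=
        Finset.sum_comm
    _ = ∑ l, ∑ j, ∑ i, y i * z j * (x l * MvPowerSeries.pderiv (PowerSeries ℂ) l (qc F i j k)) :=
        Finset.sum_congr rfl fun l _ => Finset.sum_comm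
    _ = _ := by
        refine Finset.sum_congr rfl fun l _ => Finset.sum_congr rfl fun j _ =>
          Finset.sum_congr rfl fun i _ => ?_
        rw [pderiv_qc hF l i j k]
        ring

theorem c5_symm (w x y z : AA hF h1) :
    nab hF h1 w (nab hF h1 x (y * z) - nab hF h1 x y * z - y * nab hF h1 x z)
      - (nab hF h1 (nab hF h1 w x) (y * z) - nab hF h1 (nab hF h1 w x) y * z
        - y * nab hF h1 (nab hF h1 w x) z)
      - (nab hF h1 x (nab hF h1 w y * z) - nab hF h1 x (nab hF h1 w y) * z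
        - nab hF h1 w y * nab hF h1 x z)
      - (nab hF h1 x (y * nab hF h1 w z) - nab hF h1 x y * nab hF h1 w z
        - y * nab hF h1 x (nab hF h1 w z)) =
    nab hF h1 x (nab hF h1 w (y * z) - nab hF h1 w y * z - y * nab hF h1 w z)
      - (nab hF h1 (nab hF h1 x w) (y * z) - nab hF h1 (nab hF h1 x w) y * z
        - y * nab hF h1 (nab hF h1 x w) z)
      - (nab hF h1 w (nab hF h1 x y * z) - nab hF h1 w (nab hF h1 x y) * z
        - nab hF h1 x y * nab hF h1 w z)
      - (nab hF h1 w (y * nab hF h1 x z) - nab hF h1 w y * nab hF h1 x z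
        - y * nab hF h1 w (nab hF h1 x z)) := by
  have key : ∀ w x : AA hF h1, ∀ k,
      (nab hF h1 w (nab hF h1 x (y * z) - nab hF h1 x y * z - y * nab hF h1 x z)
      - (nab hF h1 (nab hF h1 w x) (y * z) - nab hF h1 (nab hF h1 w x) y * z
        - y * nab hF h1 (nab hF h1 w x) z)
      - (nab hF h1 x (nab hF h1 w y * z) - nab hF h1 x (nab hF h1 w y) * z
        - nab hF h1 w y * nab hF h1 x z)
      - (nab hF h1 x (y * nab hF h1 w z) - nab hF h1 x y * nab hF h1 w z
        - y * nab hF h1 x (nab hF h1 w z)) : AA hF h1) k =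
      ∑ i, ∑ j, y i * z j * (der hF h1 w (der hF h1 x (qc F i j k)) -
        der hF h1 (nab hF h1 w x) (qc F i j k)) := by
    intro w x k
    have e1 : (nab hF h1 w (nab hF h1 x (y * z) - nab hF h1 x y * z -
        y * nab hF h1 x z) : AA hF h1) k = der hF h1 w
          (∑ i, ∑ j, y i * z j * der hF h1 x (qc F i j k)) := by
      change der hF h1 w ((nab hF h1 x (y * z) - nab hF h1 x y * z -
        y * nab hF h1 x z : AA hF h1) k) = _
      rw [T_apply]
    have e2 := T_apply hF h1 (nab hF h1 w x) y z k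
    have e3 := T_apply hF h1 x (nab hF h1 w y) z k
    have e4 := T_apply hF h1 x y (nab hF h1 w z) k
    refine (congrArg₂ (· - ·) (congrArg₂ (· - ·) (congrArg₂ (· - ·) e1 e2) e3) e4).trans ?_
    change der hF h1 w (∑ i, ∑ j, y i * z j * der hF h1 x (qc F i j k)) -
      (∑ i, ∑ j, y i * z j * der hF h1 (nab hF h1 w x) (qc F i j k)) -
      (∑ i, ∑ j, der hF h1 w (y i) * z j * der hF h1 x (qc F i j k)) -
      (∑ i, ∑ j, y i * der hF h1 w (z j) * der hF h1 x (qc F i j k)) = _
    rw [der_sum, ← Finset.sum_sub_distrib, ← Finset.sum_sub_distrib, ← Finset.sum_sub_distrib]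
    refine Finset.sum_congr rfl fun i _ => ?_
    rw [der_sum, ← Finset.sum_sub_distrib, ← Finset.sum_sub_distrib, ← Finset.sum_sub_distrib]
    refine Finset.sum_congr rfl fun j _ => ?_
    rw [der_mul, der_mul]
    ring
  funext k
  refine (key w x k).trans (Eq.trans ?_ (key x w k).symm)
  refine Finset.sum_congr rfl fun i _ => Finset.sum_congr rfl fun j _ => ?_
  congr 1
  have h := der_comm hF h1 w x (qc F i j k)
  have hsub : der hF h1 (nab hF h1 w x - nab hF h1 x w) (qc F i j k) =
      der hF h1 (nab hF h1 w x) (qc F i j k) - der hF h1 (nab hF h1 x w) (qc F i j k) := by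
    have h := der_add_left hF h1 (nab hF h1 w x - nab hF h1 x w) (nab hF h1 x w) (qc F i j k)
    rw [sub_add_cancel] at h
    rw [h]
    ring
  rw [hsub] at h
  linear_combination h

end Vale.Agent.P269.G1.H510
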